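import Vale.Agent.P362G46.Main

/-!
# P362: the exponent is 4 for algorithms with unrestricted computation between the queries
-/

open Vale.Agent.P362G

/-- (0) The query unitaries exist and are unique for every workspace, and the two output
probabilities add up to the squared norm of the state; (1) the minima `D`, `R`, `Q` are attained
and `Q ≤ R ≤ D ≤ n`; (2) `α_tot = 4`, the admissible exponents are exactly the `α ≥ 4`;
(3) the pairs `(Q f, R f)` fill `q ≤ r ≤ q ^ 4` up to a factor `2^(A √(log₂ q))`. -/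
theorem Vale.Agent.Results.P362.AGeneralModel.result :
    (∀ (H : Type) [NormedAddCommGroup H] [InnerProductSpace ℂ H],
      (∀ (n : ℕ) (Z : Type) (e : HilbertBasis (Fin n × Bool × Z) ℂ H) (x : Fin n → Bool),
        ∃! O : H ≃ₗᵢ[ℂ] H, ∀ i b z, O (e (i, b, z)) = e (i, xor b (x i), z)) ∧
      ∀ (O : H ≃ₗᵢ[ℂ] H) (A : Quant H) (ψ : H), (∀ c, 0 ≤ A.prob O c ψ) ∧
        A.prob O true ψ + A.prob O false ψ = ‖ψ‖ ^ 2) ∧
    (∀ n : ℕ, 1 ≤ n → ∀ f : (Fin n → Bool) → Bool,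
      IsLeast {T | DetComputes f T} (D f) ∧ IsLeast {T | RandComputes f T} (R f) ∧
        IsLeast {T | QuantComputes f T} (Q f) ∧ Q f ≤ R f ∧ R f ≤ D f ∧ D f ≤ n) ∧
    (alphaTot = 4 ∧ exponents = Set.Ici 4) ∧
    ∃ A : ℝ, ∀ q r : ℕ, 1 ≤ q → q ≤ r → r ≤ q ^ 4 →
      ∃ n : ℕ, 1 ≤ n ∧ ∃ f : (Fin n → Bool) → Bool,
        (q : ℝ) / 2 ^ (A * √(Real.logb 2 q)) ≤ Q f ∧ Q f ≤ q ∧
        (r : ℝ) / 2 ^ (A * √(Real.logb 2 q)) ≤ R f ∧ D f ≤ r :=
  ⟨fun _ _ _ => ⟨fun _ _ e x => exu_oracle e x, prob_spec⟩, fun _ hn f => minima hn f,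
    ⟨by rw [alphaTot, exponents_eq, csInf_Ici], exponents_eq⟩, joint⟩
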